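import Vale.Agent.P014T.Kq.Mat
import Vale.Agent.P014U.Kq.Sy

/-! Base change and saturation of a stage given by matrices. -/

set_option linter.all false

namespace Vale.Agent.P014U.Kq
open Matrix Submodule Set Function Module IsLocalRing P004F.Alg P004F.Ch

export Vale.Agent.P014T.Kq (lv lv_eq Sd Hf St core R1 ex_r1 ex_sat loc_zero)

variable {R G σ ι ι' : Type} (O : Type) [CommRing R] [CommRing O] [Algebra R O] [Group G]

/-- saturation of the local relations -/
structure Sat (γ : Gl R G σ) where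
  C : σ → M2 O
  N : σ → Matrix (Fin 2) F4 O
  D : σ → Matrix F4 (Fin 2) O
  eq : ∀ y, (γ.N y).map (algebraMap R O) = C y * N y
  inv : ∀ y, N y * D y = 1
  ne : ∀ y, (C y).det ≠ 0

/-- the representation after base change -/
abbrev ro (γ : Gl R G σ) (g : G) : M2 O := (γ.ρ g).map (algebraMap R O)

variable {O} {γ : Gl R G σ} (s : Sat O γ) (τ : G) (p : Pk R G σ ι)

abbrev Ro : Submodule O (Fin p.g → O) := span O (range fun i => algebraMap R O ∘ p.Rm γ τ i) ⊔
  span O (range fun x : Fin 2 × σ => ∑ k, s.N x.2 x.1 k • algebraMap R O ∘ p.l x.2 k)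

abbrev Xp : Type := (Fin p.g → O) ⧸ Ro s τ p

def mk : (Fin p.g → R) →ₗ[R] Xp s τ p :=
  (mkQ _).restrictScalars R ∘ₗ (Algebra.linearMap R O).compLeft _

variable {s τ p}

theorem mk_eq (v) : mk s τ p v = mkQ _ (algebraMap R O ∘ v) := rfl

theorem mk0 {v} (h : v ∈ p.Rl γ τ) : mk s τ p v = 0 :=
  (span_le (p := LinearMap.ker (mk s τ p))).2 (by
    rintro _ ⟨i, rfl⟩; exact (Quotient.mk_eq_zero _).2 (mem_sup_left (subset_span ⟨i, rfl⟩))) h

theorem mk1 {v w} (h : v - w ∈ p.Rl γ τ) : mk s τ p v = mk s τ p w := by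
  rw [← sub_eq_zero, ← map_sub, mk0 h]

theorem mkN (y i) : ∑ k, s.N y i k • mk s τ p (p.l y k) = 0 := by
  simp only [mk_eq, ← map_smul, ← map_sum]
  exact (Quotient.mk_eq_zero _).2 (mem_sup_right (subset_span ⟨(i, y), rfl⟩))

theorem mkU {Z : Set G} {N : Submodule O (Xp s τ p)} (h : ∀ g ∈ Z, ∀ i, mk s τ p (p.u g i) ∈ N) :
    p.Us γ τ Z ≤ (N.restrictScalars R).comap (mk s τ p) :=
  sup_le (span_le.2 (by rintro _ ⟨g, hg, i, rfl⟩; exact h g hg i)) fun v hv => by simp [mk0 hv]

theorem mk_vm {n : Type} [Fintype n] (c : n → R) (B : Matrix n (Fin p.g) R) :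
    mk s τ p (c ᵥ* B) = ∑ k, algebraMap R O (c k) • mk s τ p (B k) := by
  rw [vecMul_eq_sum, map_sum]; simp

theorem dec (w : Fin p.g → O) : mkQ (Ro s τ p) w = ∑ i, w i • mk s τ p (Pi.single i 1) := by
  conv_lhs => rw [pi_eq_sum_univ' w, map_sum]
  refine Finset.sum_congr rfl fun i _ => ?_
  rw [map_smul, mk_eq]; congr 2; ext j; simp [Pi.single_apply]

theorem ind {N : Submodule O (Xp s τ p)} (h : ∀ v, mk s τ p v ∈ N) : N = ⊤ := eq_top_iff.2 fun z _ => by
  obtain ⟨w, rfl⟩ := mkQ_surjective _ z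
  exact dec w ▸ sum_mem fun i _ => smul_mem _ _ (h _)

section
variable {M : Type} [AddCommGroup M] [Module O M] [Module R M] [IsScalarTower R O M]

theorem lc {I : Type} [Fintype I] [DecidableEq I] (g : (I → R) →ₗ[R] M) (v : I → R) :
    Fintype.linearCombination O (fun i => g (Pi.single i 1)) (algebraMap R O ∘ v) = g v := by
  conv_rhs => rw [pi_eq_sum_univ' v, map_sum]
  simp [Fintype.linearCombination_apply]

def lift (g : (Fin p.g → R) →ₗ[R] M) (h : ∀ i, g (p.Rm γ τ i) = 0)
    (h' : ∀ y i, ∑ k, s.N y i k • g (p.l y k) = 0) : Xp s τ p →ₗ[O] M :=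
  liftQ _ (Fintype.linearCombination O fun i => g (Pi.single i 1)) (sup_le
    (span_le.2 (by rintro _ ⟨i, rfl⟩; exact (lc g _).trans (h i))) (span_le.2 (by
      rintro _ ⟨x, rfl⟩
      simpa only [SetLike.mem_coe, LinearMap.mem_ker, map_sum, map_smul, lc] using h' x.2 x.1)))

theorem lift_mk (g : (Fin p.g → R) →ₗ[R] M) (h h' v) : lift (s := s) g h h' (mk s τ p v) = g v :=
  lc g v

end

variable (s τ p) in
/-- the module of one side -/
abbrev hf (lam : Fin 2 → O) : Hf O G ι where
  X := Xp s τ p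
  u g i := mk s τ p (p.u g i)
  f x := lv lam fun i => mk s τ p (p.F x i)
  s x := lv lam fun i => mk s τ p (p.S x i)

variable {e lam : Fin 2 → O} (r : R1 (ro O γ τ - 1) e lam) {H : Subgroup G} {c : G} {d : ℕ}

theorem ro_sub (i j) : (ro O γ τ - 1) i j = algebraMap R O ((γ.ρ τ - 1) i j) := by
  simp [one_apply, apply_ite (algebraMap R O)]

include r in
theorem mkS (x i) : mk s τ p (p.S x i) = e i • (hf s τ p lam).s x :=
  r.col (x := fun i => mk s τ p (p.S x i)) (fun i => by
    simp only [ro_sub]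
    exact (mk_vm _ (p.S x)).symm.trans (mk0 (subset_span ⟨.inr (.inr x, i), rfl⟩))) i

variable [Pp]

theorem un (h2 : IsUnit (pp : O)) {x : R} (h : Un x) : IsUnit (algebraMap R O x) := by
  obtain ⟨c, h⟩ := h
  have := map_dvd (algebraMap R O) h
  rw [map_pow, map_natCast] at this
  exact isUnit_of_dvd_unit this (h2.pow c)

theorem gl_sd (h2 : IsUnit (pp : O)) (h₂ : IsUnit (2 : O)) (o : γ.Ok H τ c) (n : H.Normal) (r : R1 (ro O γ τ - 1) e lam) :
    Sd (ro O γ) H τ c (algebraMap R O ∘ γ.gp) lam := by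
  refine ⟨⟨fun g h => by simp [ro], fun g h a => n.conj_mem h a g, fun h a => by simp [ro, o.ρH h a],
    fun _ h => h, eq_top_iff.2 fun B _ => matrix_eq_sum_single B ▸ sum_mem fun i _ => sum_mem fun j _ =>
    ?_⟩, ?_, ?_, by simpa only [vecMul_sub, vecMul_one, sub_eq_zero] using r.lM, ⟨e, r.le⟩, h₂⟩
  · obtain ⟨k, hk⟩ := o.spn (single i j 1)
    have := (span_le (p := ((span O (range (ro O γ))).restrictScalars R).comap
      (Algebra.linearMap R O).mapMatrix)).2 (by rintro _ ⟨g, rfl⟩; exact subset_span ⟨g, rfl⟩) hk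
    obtain ⟨w, hw⟩ := (h2.pow k).exists_left_inv
    have e : single i j (B i j) = (B i j * w) • (Algebra.linearMap R O).mapMatrix
        ((pp : R) ^ k • single i j (1 : R)) := by simp [map_natCast, mul_assoc, hw]
    exact e ▸ smul_mem _ _ this
  · obtain ⟨z, a, h1, h3, h4⟩ := o.sah
    exact ⟨z, algebraMap R O a, by ext; simp [h1, one_apply, apply_ite (algebraMap R O)],
      by simpa using un h2 h3, h4⟩
  · obtain ⟨w, hw⟩ := o.cj
    refine ⟨algebraMap R O ∘ w, ?_⟩
    ext i j
    simpa [vecMulVec_apply, one_apply, apply_ite (algebraMap R O)] using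
      congrArg (algebraMap R O) (congrFun (congrFun hw i) j)

variable [Fintype σ] [Fintype ι] (h2 : IsUnit (pp : O)) (o : p.Ok γ τ H c d)
include r h2 o

theorem hf_ok [IsDomain O] : (hf s τ p lam).Ok (ro O γ) H c d where
  fin := inferInstanceAs (Module.Finite O (Xp s τ p))
  co a b := funext fun i => by
    have := mk0 (s := s) (o.coc a b i)
    rw [show (p.u (a * b) - p.u a - γ.ρ a * p.u b) i = p.u (a * b) i - p.u a i - γ.ρ a i ᵥ* p.u b from rfl,
      map_sub, map_sub, mk_vm, sub_sub, sub_eq_zero] at this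
    exact this
  gen := ind fun v => by
    obtain ⟨k, hk⟩ := o.gen
    have := mkU (s := s) (fun g _ i => mem_Y (O := O) (hf s τ p lam).u (Subgroup.mem_top g) i) (hk v)
    rw [mem_comap, map_smul, ← algebraMap_smul O, map_pow, map_natCast] at this
    exact (smul_mem_iff_of_isUnit _ (h2.pow k)).1 this
  fr := funext fun i => mk0 (o.fr i)
  sH x := by
    have := fun i => mkU (s := s) (fun g a i => mem_Y (O := O) (hf s τ p lam).u a i) (o.sH x i)
    exact (congrArg (· ∈ _) (lv_eq lam fun i => mk s τ p (p.S x i))).mpr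
      (add_mem (smul_mem _ _ (this 0)) (smul_mem _ _ (this 1)))
  rk := by
    let T : Fin p.r ⊕ Fin 2 × σ ⊕ ι → Fin p.g → O := Sum.elim (fun i => algebraMap R O ∘ p.Q i)
      (Sum.elim (fun x => ∑ k, s.N x.2 x.1 k • algebraMap R O ∘ p.l x.2 k) fun x =>
        ![-e 1, e 0] ᵥ* (p.S x).map (algebraMap R O))
    have l : Ro s τ p ≤ span O (range T) := by
      refine sup_le (span_le.2 ?_) (span_mono (by rintro _ ⟨x, rfl⟩; exact ⟨.inr (.inl x), rfl⟩))
      rintro _ ⟨i | ⟨y | x, i⟩, rfl⟩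
      · exact subset_span ⟨.inl i, rfl⟩
      · have : algebraMap R O ∘ p.Rm γ τ (.inr (.inl y, i)) = ∑ j, s.C y i j • T (.inr (.inl (j, y))) := by
          have := congrFun ((Matrix.map_mul (L := γ.N y) (M := p.l y) (f := algebraMap R O)).trans
            (by rw [s.eq, Matrix.mul_assoc])) i
          refine Eq.trans this ?_
          ext; simp [T, mul_apply, Finset.sum_apply, mul_add]
        exact (congrArg (· ∈ _) this).mpr (sum_mem fun j _ => smul_mem _ _ (subset_span ⟨_, rfl⟩))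
      · have a := congrFun r.Me i
        have b := r.le
        have : algebraMap R O ∘ p.Rm γ τ (.inr (.inr x, i)) = ((ro O γ τ - 1) i 1 * lam 0 -
            (ro O γ τ - 1) i 0 * lam 1) • T (.inr (.inr x)) := by
          ext j
          simp only [mulVec, dotProduct, Fin.sum_univ_two, Pi.zero_apply] at a b
          show algebraMap R O (∑ k, (γ.ρ τ - 1) i k * p.S x k j) = _
          simp only [T, Sum.elim_inr, Fin.sum_univ_two, map_add,
            map_mul, ← ro_sub, Pi.smul_apply, vecMul, dotProduct, map_apply, cons_val_zero, cons_val_one,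
            smul_eq_mul]
          linear_combination (lam 0 * algebraMap R O (p.S x 0 j) + lam 1 * algebraMap R O (p.S x 1 j)) * a -
            ((ro O γ τ - 1) i 0 * algebraMap R O (p.S x 0 j) +
              (ro O γ τ - 1) i 1 * algebraMap R O (p.S x 1 j)) * b
        exact (congrArg (· ∈ _) this).mpr (smul_mem _ _ (subset_span ⟨_, rfl⟩))
    have := Module.Finite.span_of_finite O (finite_range T)
    have a := (Ro s τ p).finrank_quotient_add_finrank
    have b := (Submodule.finrank_mono l).trans (finrank_range_le_card T)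
    have := o.cnt
    simp only [finrank_fintype_fun_eq_card, Fintype.card_sum, Fintype.card_prod, Fintype.card_fin] at a b
    show _ ≤ finrank O (Xp s τ p)
    unfold Xp; omega

theorem hf_ex {q : Pk R G σ ι'} {ε : Option ι ≃ ι'} {g : G} (E : p.Ext γ τ q ε g) :
    ∃ π, (hf s τ p lam).Ex (hf s τ q lam) ε (lv lam ((hf s τ p lam).u g)) π := by
  let π : Xp s τ q →ₗ[O] Xp s τ p := lift (mk s τ p ∘ₗ E.A.vecMulLinear)
    (fun i => mk0 ((E.ker _).2 (mem_sup_left (subset_span ⟨i, rfl⟩)))) fun y i =>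
      (Finset.sum_congr rfl fun k _ => congrArg _ (mk1 (E.l y k))).trans (mkN y i)
  have hπ : ∀ v, π (mk s τ q v) = mk s τ p (v ᵥ* E.A) := lift_mk _ _ _
  have hl : ∀ x : Fin 2 → Xp s τ q, π (lv lam x) = lv lam fun i => π (x i) := fun x => by simp [lv_eq]
  let S := span O {(hf s τ q lam).s (ε none)}
  let n := S.mkQ.restrictScalars R ∘ₗ mk s τ q
  have n0 : ∀ v, v ᵥ* E.A ∈ p.Rl γ τ → n v = 0 := fun v hv => (sup_le
    (fun v hv => by simp [n, mk0 hv]) (span_le.2 (by
      rintro _ ⟨i, rfl⟩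
      exact (Quotient.mk_eq_zero _).2 (mem_span_singleton.2 ⟨_, (mkS r _ i).symm⟩))) :
      _ ≤ LinearMap.ker n) ((E.ker v).1 hv)
  obtain ⟨k, hk⟩ := o.gen
  obtain ⟨t, ht⟩ := (h2.pow k).exists_left_inv
  have sj : p.Us γ τ univ ≤ LinearMap.range E.A.vecMulLinear ⊔ p.Rl γ τ := sup_le (span_le.2 (by
    rintro _ ⟨a, -, i, rfl⟩
    exact mem_sup.2 ⟨_, ⟨q.u a i, rfl⟩, _, neg_mem (E.u a i), by ext; simp [mul_apply, vecMul, dotProduct]⟩))
    le_sup_right
  choose _ hw z hz hw' using fun i => mem_sup.1 (sj (hk (Pi.single i 1)))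
  choose w hw using hw
  let b := Fintype.linearCombination R w
  have b1 : ∀ v, b v ᵥ* E.A - (pp : R) ^ k • v ∈ p.Rl γ τ := fun v => by
    conv => enter [2, 2, 2]; rw [pi_eq_sum_univ' v]
    simp only [b, Fintype.linearCombination_apply, sum_vecMul, Finset.smul_sum, ← Finset.sum_sub_distrib]
    refine sum_mem fun i _ => ?_
    rw [smul_vecMul, smul_comm, ← smul_sub, ← hw', ← hw]
    simpa using smul_mem _ (v i) (hz i)
  have g1 : ∀ v w, w ᵥ* E.A - v ∈ p.Rl γ τ → t • n (b v) = n w := fun v w h => by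
    have := n0 (b v - (pp : R) ^ k • w) (by
      have := sub_mem (b1 v) (smul_mem _ ((pp : R) ^ k) h)
      rwa [smul_sub, sub_sub_sub_cancel_right, ← smul_vecMul, ← sub_vecMul] at this)
    rw [map_sub, sub_eq_zero] at this
    rw [this, map_smul, ← algebraMap_smul O ((pp : R) ^ k), map_pow, map_natCast, ← mul_smul, ht, one_smul]
  let j : Xp s τ p →ₗ[O] Xp s τ q ⧸ S := lift (t • (n ∘ₗ b))
    (fun i => (g1 _ 0 (by
      rw [zero_vecMul, zero_sub]; exact neg_mem (subset_span ⟨i, rfl⟩))).trans (map_zero _)) fun y i =>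
      (Finset.sum_congr rfl fun k _ => congrArg _ (g1 _ _ (E.l y k))).trans (by
        have := congrArg S.mkQ (mkN y i)
        simp only [map_sum, map_smul, map_zero] at this
        exact this)
  have hj : LinearMap.ker (j ∘ₗ π - S.mkQ) = ⊤ := ind fun v => sub_eq_zero.2 (by
    rw [LinearMap.comp_apply, hπ, lift_mk]
    exact g1 _ _ (by simp))
  refine ⟨π, le_antisymm (fun z hz => ?_) (span_le.2 ?_), fun a i => (hπ _).trans (mk1 (E.u a i)),
    fun x => (hl _).trans (congrArg _ (funext fun i => (hπ _).trans (mk1 (E.F x i)))),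
    fun x => (hl _).trans (congrArg _ (funext fun i => (hπ _).trans (mk1 (E.S x i)))),
    (hl _).trans (congrArg _ (funext fun i => (hπ _).trans (mk1 (E.new i))))⟩
  · have : j (π z) - S.mkQ z = 0 := (hj ▸ mem_top : z ∈ LinearMap.ker (j ∘ₗ π - S.mkQ))
    rw [show π z = 0 from hz, map_zero, zero_sub, neg_eq_zero] at this
    exact (Quotient.mk_eq_zero _).1 this
  · rintro _ rfl
    exact (hl _).trans ((congrArg _ (funext fun i => (hπ _).trans (mk0 ((E.ker _).2
      (mem_sup_right (subset_span ⟨i, rfl⟩)))))).trans (map_zero _))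

end Vale.Agent.P014U.Kq
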