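import Vale.Agent.P014U.Kq.Bc

/-! The Kolyvagin bound after base change to a discrete valuation ring. -/

set_option linter.all false

namespace Vale.Agent.P014U.Kq
open Matrix Submodule Set Function Module IsLocalRing P004F.Alg P004F.Ch TensorProduct nonZeroDivisors

variable {R G σ ι O : Type} [CommRing R] [CommRing O] [Algebra R O] [Group G] [IsDomain O]
  {γ γ' : Gl R G σ} (s : Sat O γ) (s' : Sat O γ') {τ : G}

/-- a point after saturation -/
noncomputable def pt {p : Pk R G σ ι} {κ : Fin p.g → R} (h : p.Rm γ τ *ᵥ κ = 0) : Xp s τ p →ₗ[O] O :=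
  lift (Algebra.linearMap R O ∘ₗ (dotProductBilin R R).flip κ)
    (fun i => (congrArg (algebraMap R O) (congrFun h i)).trans (map_zero _)) fun y i =>
      congrFun (eq_zero_of_mulVec_eq_zero (s.ne y) (v := s.N y *ᵥ (algebraMap R O ∘ (p.l y *ᵥ κ))) (by
        rw [mulVec_mulVec, ← s.eq]
        ext j
        rw [← RingHom.map_mulVec, mulVec_mulVec]
        exact (congrArg (algebraMap R O) (congrFun h (.inr (.inl y, j)))).trans (map_zero _))) i

theorem pt_mk {p : Pk R G σ ι} {κ : Fin p.g → R} (h : p.Rm γ τ *ᵥ κ = 0) (v) :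
    pt s h (mk s τ p v) = algebraMap R O (v ⬝ᵥ κ) := lift_mk _ _ _ v

variable [Pp] [Fintype σ] {H : Subgroup G} {c : G} {J : M2 R} {B : σ → Matrix F4 F4 R} {p q : Sg R G σ}
  (o : p.Ok γ γ' τ H c J B) (lam lam' : Fin 2 → O)

/-- the stage after base change -/
noncomputable abbrev st : St O G where
  ι := p.ι
  X := hf s τ p.X lam
  Y := hf s' τ p.Y lam'
  κ := pt s o.kr
  dg := pt s o.dr

variable {lam lam'} {e e' : Fin 2 → O} (r : R1 (ro O γ τ - 1) e lam) (r' : R1 (ro O γ' τ - 1) e' lam')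
  (h2 : IsUnit (pp : O))
include r r' h2

theorem st_ex (o' : q.Ok γ γ' τ H c J B) {g : G} (E : p.Ext γ γ' τ q g) :
    (st s s' o lam lam').Ex lam lam' (st s s' o' lam lam') g := by
  obtain ⟨π, h⟩ := hf_ex (s := s) r h2 o.X E.X
  obtain ⟨π', h'⟩ := hf_ex (s := s') r' h2 o.Y E.Y
  obtain ⟨y, hy, k⟩ := E.fs
  obtain ⟨t, ht, a⟩ := r.adj
  refine ⟨E.e, π, π', h, h', (Associated.of_eq ?_).trans
    (associated_unit_mul_left _ _ ((un h2 hy).mul ht))⟩
  have a' : ∀ i j, algebraMap R O ((γ.ρ τ - 1).adjugate i j) = t * (e i * lam j) := fun i j => by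
    have := congrFun (congrFun (RingHom.map_adjugate (algebraMap R O) (γ.ρ τ - 1)) i) j
    rwa [show (algebraMap R O).mapMatrix (γ.ρ τ - 1) = ro O γ τ - 1 from
      Matrix.ext fun i j => (ro_sub i j).symm, a] at this
  have k' : ∀ i, algebraMap R O (q.X.S (E.e none) i ⬝ᵥ q.κ) = algebraMap R O y * ∑ j, t * (e i * lam j) *
      algebraMap R O (p.X.u g j ⬝ᵥ p.κ) := fun i => by
    simp only [← a', ← map_mul, ← map_sum]; exact congrArg _ (congrFun k i)
  have b := r.le
  rw [dotProduct, Fin.sum_univ_two] at b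
  simp only [lv_eq, map_add, map_smul, pt_mk, k', smul_eq_mul, Fin.sum_univ_two]
  linear_combination (algebraMap R O y * t * (lam 0 * algebraMap R O (p.X.u g 0 ⬝ᵥ p.κ) +
    lam 1 * algebraMap R O (p.X.u g 1 ⬝ᵥ p.κ))) * b

variable [IsDiscreteValuationRing O]

theorem st_ok (uJ : Un J.det) (τJ : (γ.ρ τ)ᵀ * J * γ'.ρ τ = J)
    (hB : ∀ y, (1 - s.D y * s.N y)ᵀ * (B y).map (algebraMap R O) * (1 - s'.D y * s'.N y) = 0) :
    (st s s' o lam lam').Ok (ro O γ) (ro O γ') H c (algebraMap R O ∘ γ.gp) where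
  X := hf_ok r h2 o.X
  Y := hf_ok r' h2 o.Y
  du g i := (pt_mk s o.dr _).trans ((congrArg _ (congrFun (o.du g) i)).trans (by
    simp [mulVec, dotProduct, one_apply, apply_ite (algebraMap R O)]))
  rc := by
    obtain ⟨w, w', η, Z, Z', hw, k⟩ := o.rc
    obtain ⟨⟨a, ha, a1⟩, a', ha', a2⟩ := r.dual r' (J := J.map (algebraMap R O))
      (RingHom.map_det (algebraMap R O) J ▸ un h2 uJ) (by
        simp only [ro, ← transpose_map, ← Matrix.map_mul, τJ])
    let ψ := (residue O).comp (algebraMap R O)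
    refine ⟨fun l => residue O (algebraMap R O (w l) * a), fun l => residue O (algebraMap R O (w' l) * a'),
      fun l => (((un h2 (hw l).1).mul ha).map _).ne_zero,
      fun l => (((un h2 (hw l).2).mul ha').map _).ne_zero, fun x y => ?_⟩
    let xv := fun i => x (mk s τ p.X (Pi.single i 1))
    let yv := fun i => y (mk s' τ p.Y (Pi.single i 1))
    have sm : ∀ (a : O) (z : ResidueField O), a • z = residue O a * z := fun a z => Algebra.smul_def a z
    have hx : ∀ {n : Type} (P : Matrix n _ R), P.map ψ *ᵥ xv = fun a => x (mk s τ p.X (P a)) := fun P => by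
      ext a; rw [mk_eq, dec, map_sum]; simp only [map_smul, sm]; rfl
    have hy : ∀ {n : Type} (P : Matrix n _ R), P.map ψ *ᵥ yv = fun a => y (mk s' τ p.Y (P a)) := fun P => by
      ext a; rw [mk_eq, dec, map_sum]; simp only [map_smul, sm]; rfl
    let Ψ : Matrix _ _ R →+ ResidueField O := AddMonoidHom.mk' (fun C => xv ⬝ᵥ C.map ψ *ᵥ yv)
      fun _ _ => by simp [Matrix.map_add, add_mulVec]
    have k1 : ∀ {n m : Type} [Fintype n] [Fintype m] (P : Matrix n _ R) (T : Matrix n m R) (P' : Matrix m _ R),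
        Ψ (Pᵀ * T * P') = (fun a => x (mk s τ p.X (P a))) ⬝ᵥ T.map ψ *ᵥ fun a => y (mk s' τ p.Y (P' a)) :=
      fun P T P' => by
        simp only [Ψ, AddMonoidHom.mk'_apply, Matrix.map_mul, ← mulVec_mulVec, transpose_map, ← hx, ← hy]
        rw [dotProduct_mulVec, vecMul_transpose]
    have k2 : ∀ (a : R) C, Ψ (a • C) = ψ a * Ψ C := fun a C => by
      simp only [Ψ, AddMonoidHom.mk'_apply]
      rw [show (a • C).map ψ = ψ a • C.map ψ by ext; simp, smul_mulVec, dotProduct_smul, smul_eq_mul]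
    have z1 : Ψ ((p.X.Rm γ τ)ᵀ * Z) = 0 := by
      simp only [Ψ, AddMonoidHom.mk'_apply, Matrix.map_mul, ← mulVec_mulVec, transpose_map]
      rw [dotProduct_mulVec, vecMul_transpose, show (p.X.Rm γ τ).map ψ *ᵥ xv = 0 from
        (hx _).trans (funext fun a => by rw [mk0 (subset_span ⟨a, rfl⟩), map_zero]; rfl), zero_dotProduct]
    have z2 : Ψ (Z' * p.Y.Rm γ' τ) = 0 := by
      simp only [Ψ, AddMonoidHom.mk'_apply, Matrix.map_mul, ← mulVec_mulVec]
      rw [show (p.Y.Rm γ' τ).map ψ *ᵥ yv = 0 from (hy _).trans (funext fun a => by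
        rw [mk0 (subset_span ⟨a, rfl⟩), map_zero]; rfl), mulVec_zero, dotProduct_zero]
    have z3 : ∀ z, Ψ ((p.X.l z)ᵀ * B z * p.Y.l z) = 0 := fun z => by
      have n1 : (1 - s.D z * s.N z).map (residue O) *ᵥ (fun a => x (mk s τ p.X (p.X.l z a))) =
          fun a => x (mk s τ p.X (p.X.l z a)) := by
        rw [Matrix.map_sub _ (map_sub _), Matrix.map_one _ (map_zero _) (map_one _), Matrix.map_mul,
          sub_mulVec, one_mulVec, ← mulVec_mulVec, show (s.N z).map _ *ᵥ _ = 0 from funext fun i => by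
            have := congrArg x (mkN z i)
            simp only [map_sum, map_smul, sm, map_zero] at this
            exact this, mulVec_zero, sub_zero]
      have n2 : (1 - s'.D z * s'.N z).map (residue O) *ᵥ (fun a => y (mk s' τ p.Y (p.Y.l z a))) =
          fun a => y (mk s' τ p.Y (p.Y.l z a)) := by
        rw [Matrix.map_sub _ (map_sub _), Matrix.map_one _ (map_zero _) (map_one _), Matrix.map_mul,
          sub_mulVec, one_mulVec, ← mulVec_mulVec, show (s'.N z).map _ *ᵥ _ = 0 from funext fun i => by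
            have := congrArg y (mkN z i)
            simp only [map_sum, map_smul, sm, map_zero] at this
            exact this, mulVec_zero, sub_zero]
      rw [k1, ← n1, ← n2, ← vecMul_transpose, ← dotProduct_mulVec, mulVec_mulVec, mulVec_mulVec,
        ← transpose_map, show (B z).map ψ = ((B z).map (algebraMap R O)).map (residue O) from rfl,
        ← Matrix.map_mul, ← Matrix.map_mul, hB]
      simp
    have := congrArg Ψ k
    rw [map_add, map_add, z1, z2, k2, map_sum, map_sum, Finset.sum_eq_zero fun z _ => z3 z, mul_zero,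
      add_zero, add_zero] at this
    rw [← this, dotProduct, dotProduct, ← Finset.sum_add_distrib]
    refine Finset.sum_congr rfl fun l _ => ?_
    have b1 := fun i => congrArg (residue O) (congrFun a1 i)
    have b2 := fun i => congrArg (residue O) (congrFun a2 i)
    obtain ⟨u, u1, u2⟩ : ∃ u, x ((hf s τ p.X lam).s l) = u ∧
        ∀ i, x (mk s τ p.X (p.X.S l i)) = residue O (e i) * u :=
      ⟨_, rfl, fun i => (congrArg x (mkS r l i)).trans ((map_smul ..).trans (sm ..))⟩
    obtain ⟨v, v1, v2⟩ : ∃ u, y ((hf s' τ p.Y lam').s l) = u ∧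
        ∀ i, y (mk s' τ p.Y (p.Y.S l i)) = residue O (e' i) * u :=
      ⟨_, rfl, fun i => (congrArg y (mkS r' l i)).trans ((map_smul ..).trans (sm ..))⟩
    show residue O (algebraMap R O (w l) * a) * x (lv lam _) * y ((hf s' τ p.Y lam').s l) +
      residue O (algebraMap R O (w' l) * a') * x ((hf s τ p.X lam).s l) * y (lv lam' _) = _
    rw [u1, v1]
    simp only [map_add, k1, k2, u2, v2, lv_eq, mulVec, vecMul, dotProduct, Fin.sum_univ_two, map_mul,
      map_smul, sm, map_apply, Pi.smul_apply, smul_eq_mul, ψ, RingHom.comp_apply] at b1 b2 ⊢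
    linear_combination (-residue O (algebraMap R O (w l)) * v) * (x (mk s τ p.X (p.X.F l 0)) * b1 0 +
      x (mk s τ p.X (p.X.F l 1)) * b1 1) - (residue O (algebraMap R O (w' l)) * u) *
      (y (mk s' τ p.Y (p.Y.F l 0)) * b2 0 + y (mk s' τ p.Y (p.Y.F l 1)) * b2 1)

omit o r r' [Fintype σ] in
/-- **the Kolyvagin bound over a discrete valuation ring** -/
theorem kq_dvr (h₂ : IsUnit (2 : O)) (reg : ∀ x ∈ R⁰, algebraMap R O x ≠ 0) (S : SyQ R) (x) {d : R} (hd : Pr (S.Qt x) d) :
    algebraMap R O d ∣ algebraMap R O ((∏ y, S.P y) * S.o.W x) := by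
  classical
  have dm : ∀ {n : Type} [Fintype n] [DecidableEq n] (A : Matrix n n R),
      algebraMap R O A.det = (A.map (algebraMap R O)).det := fun A => RingHom.map_det _ A
  have r1 : ∀ {γ : Gl R S.G S.σ}, γ.Ok S.H S.τ S.c → ∃ e lam, R1 (ro O γ S.τ - 1) e lam := fun {γ} h => by
    have e : ro O γ S.τ - 1 = (γ.ρ S.τ - 1).map (algebraMap R O) := Matrix.ext ro_sub
    exact ex_r1 (by rw [e, ← dm, h.det, map_zero]) (by rw [e, ← AddMonoidHom.map_trace]; exact un h2 h.tr)
  obtain ⟨e, lam, r⟩ := r1 S.g1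
  obtain ⟨e', lam', r'⟩ := r1 S.g2
  have sat : ∀ γ : Gl R S.G S.σ, (∀ y, ∃ D : Matrix F4 (Fin 2) R, algebraMap R O (γ.N y * D).det ≠ 0) →
      Nonempty (Sat O γ) := fun γ h => by
    choose D hD using h
    choose C N D h1 h3 h4 using fun y => ex_sat ((γ.N y).map (algebraMap R O))
      (D := (D y).map (algebraMap R O)) (by rw [← Matrix.map_mul, ← dm]; exact hD y)
    exact ⟨⟨C, N, D, h1, h3, h4⟩⟩
  have pn : ∀ y (t : O), (∀ D : Matrix F4 (Fin 2) R, t ∣ algebraMap R O (S.γ.N y * D).det) →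
      t ∣ algebraMap R O (S.P y) := fun y t h => by
    obtain ⟨k, hk⟩ := S.PN y
    have := Ideal.mem_span_singleton.1 ((Ideal.span_le (I := (Ideal.span {t}).comap (algebraMap R O))).2
      (by rintro _ ⟨D, rfl⟩; exact Ideal.mem_span_singleton.2 (h D)) hk)
    rwa [map_mul, map_pow, map_natCast, (h2.pow k).dvd_mul_left] at this
  obtain ⟨s⟩ := sat S.γ fun y => by
    by_contra! h
    exact reg _ (S.P0 y) (zero_dvd_iff.1 (pn y 0 fun D => zero_dvd_iff.2 (h D)))
  obtain ⟨s'⟩ := sat S.γ' fun y => (S.N0 y).imp fun D h => reg _ h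
  have ok := fun p hp => st_ok s s' (S.ok p hp) r r' h2 S.uJ S.τJ fun y => by
    obtain ⟨Cb, D, Z, k1, k2, k3⟩ := S.cb y
    exact loc_zero (Cb := Cb.map (algebraMap R O)) (E := D.map (algebraMap R O))
      (Z := Z.map (algebraMap R O)) (s.inv y) (s'.inv y) (s.ne y)
      (by rw [← Matrix.map_mul, ← dm]; exact reg _ k1)
      (by rw [← s.eq, ← Matrix.map_mul, k2, Matrix.map_zero _ (map_zero _)])
      (by rw [← s'.eq, ← transpose_map, ← Matrix.map_mul, ← Matrix.map_mul, k3])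
  have := S.emp
  obtain ⟨δ, d1, d2⟩ := core (gl_sd h2 h₂ S.g1 S.nH r) (gl_sd h2 h₂ S.g2 S.nH r')
    (𝒮 := {q | ∃ p, ∃ h : p ∈ S.𝒮, q = st s s' (S.ok p h) lam lam'})
    (by rintro _ ⟨p, h, rfl⟩; exact ok p h) (by
      rintro _ ⟨p, h, rfl⟩ a ha
      obtain ⟨q, h', ⟨E⟩⟩ := S.ext p h a ha
      exact ⟨_, ⟨q, h', rfl⟩, st_ex s s' _ r r' h2 _ E⟩) ⟨_, S.mem, rfl⟩ (Fin 2)
    (fun i => mk s S.τ S.o.X (x i)) ![pt s (S.ok _ S.mem).dr, pt s (S.ok _ S.mem).kr] 0 1
    (by simp) (by simp) rfl rfl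
  have d3 : δ ∣ algebraMap R O (S.o.W x) := by
    simpa [det_fin_two, pt_mk, Sg.W, mul_comm] using d2
  let m : (Fin S.o.X.g → R) →ₗ[R] O ⊗[R] S.Qt x := TensorProduct.mk R O _ 1 ∘ₗ mkQ _
  have m0 : ∀ v ∈ S.o.X.Rl S.γ S.τ ⊔ span R (range x), m v = 0 := fun v h => by
    simp [m, (Quotient.mk_eq_zero _).2 h]
  let n := fun z : Fin 2 × S.σ => ∑ k, s.N z.2 z.1 k • m (S.o.X.l z.2 k)
  let N := span O (range n)
  have d4 : Dt N (∏ y, (s.C y).det) := by
    refine ⟨Fin 2 × S.σ, inferInstance, inferInstance, fun z => ⟨n z, subset_span ⟨z, rfl⟩⟩,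
      blockDiagonal s.C, (span_range_subtype_eq_top_iff N _).2 rfl, fun z => Subtype.ext ?_,
      det_blockDiagonal _⟩
    have k := m0 _ (mem_sup_left (subset_span ⟨.inr (.inl z.2, z.1), rfl⟩))
    rw [show S.o.X.Rm S.γ S.τ _ = S.γ.N z.2 z.1 ᵥ* S.o.X.l z.2 from rfl, vecMul_eq_sum, map_sum] at k
    have k' : ∀ j, algebraMap R O (S.γ.N z.2 z.1 j) = ∑ i, s.C z.2 z.1 i * s.N z.2 i j := fun j =>
      congrFun (congrFun (s.eq z.2) z.1) j
    simp only [map_smul, ← algebraMap_smul O (S.γ.N z.2 z.1 _), k', Finset.sum_smul, mul_smul] at k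
    rw [Finset.sum_comm] at k
    simp only [← Finset.smul_sum] at k
    simpa [Fintype.sum_prod_type, blockDiagonal_apply, n, -Fin.sum_univ_two, -Fintype.sum_sum_type] using k
  let L : Xp s S.τ S.o.X →ₗ[O] (O ⊗[R] S.Qt x) ⧸ N := lift (N.mkQ.restrictScalars R ∘ₗ m)
    (fun i => by simp [m0 _ (mem_sup_left (subset_span ⟨i, rfl⟩))]) fun y i => by
      have := (Quotient.mk_eq_zero N).2 (subset_span ⟨(i, y), rfl⟩)
      rw [← mkQ_apply, map_sum] at this
      simp only [map_smul] at this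
      exact this
  have d5 := d1.lift L (LinearMap.range_eq_top.1 (top_unique fun z _ => by
      obtain ⟨z, rfl⟩ := mkQ_surjective _ z
      induction z using TensorProduct.induction_on with
      | zero => simp
      | add a b ha hb => exact map_add N.mkQ a b ▸ add_mem (ha trivial) (hb trivial)
      | tmul a v =>
        obtain ⟨v, rfl⟩ := mkQ_surjective _ v
        refine ⟨a • mk s S.τ S.o.X v, ?_⟩
        exact (map_smul ..).trans ((congrArg _ (lift_mk ..)).trans ((map_smul N.mkQ a _).symm.trans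
          (congrArg _ (by simp [m, smul_tmul'])))))) (span_le.2 (by
      rintro _ ⟨i, rfl⟩
      exact (lift_mk ..).trans (by simp [m0 _ (mem_sup_right (subset_span ⟨i, rfl⟩))])))
  refine ((hd.baseChange O).dvd (d4.mul N d5)).trans ?_
  rw [map_mul, map_prod]
  exact mul_dvd_mul (Finset.prod_dvd_prod_of_dvd _ _ fun y _ => pn y _ fun D => by
    rw [dm, Matrix.map_mul, s.eq, Matrix.mul_assoc, det_mul]; exact dvd_mul_right ..) d3

end Vale.Agent.P014U.Kq
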